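import Vale.Agent.P241.H302.NullOf
import Vale.Agent.P241.H808.Null2
import Vale.Agent.P241.H40.ClaimT
import Vale.Agent.P241.H46.SphEM
import Vale.Agent.P241.H46.EulMain
import Vale.Agent.P241.EUL.NilCoef
import Vale.Agent.P241.EUL.KapIdeal
import Vale.Agent.P241.R.TSide

/-!
# P241: EULNULL

`eulNull` : for a `p`-group `W ≠ 1` and a finite cell space `Y` with `K(j)_* Y = 0` for
`j + rk W ≤ t` (no condition if `W` is not commutative), there is a list of proper subgroups `B` of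
`W` such that the inclusion of `Y` in `∏ star (W/B) × Y` is null over `E_m`, for every `m`.
-/

open CategoryTheory MonoidalCategory Filter Topology OnePoint Matrix

open Vale.Agent.P251.St (Space Map Rn Susp SHCat toLC toHom ofHom ofLC)
open Vale.Agent.P251.St.SHCat
open Vale.Agent.P251.G Vale.Agent.P251.G.LC Vale.Agent.P251.Q Vale.Agent.P251.M
  Vale.Agent.P251.F Vale.Agent.P251.T Vale.Agent.P251.I
open Vale.Agent.P241.St Vale.Agent.P241.Final Vale.Agent.P241.R Vale.Agent.P241.EUL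
  Vale.Agent.P241.H808 Vale.Agent.P241.H256

noncomputable section

namespace Vale.Agent.P241.H302

variable {T : SHCat} {S : Susp T} {p : ℕ}

/-- from a class which is killed by `Y` to an honest null-homotopy -/
def LinStage (X : Ctx S) (p t : ℕ) : Prop :=
  ∀ (K : LC) (ι : Type) [Fintype ι] [DecidableEq ι] (g : K ⟶ Cpow ι) (Y : LC) (q : ℤ) (M : ℕ), FC K → FC Y →
    ¬ (p : ℤ) ∣ q →
    q • vv p t X.o.law ^ M • (thK X.e X.M.R).map g (X.o.lin ι) ∈
      (kill X.M.R X.e (S.obj (ofLC Y))).I K →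
    ∃ (a : ℕ) (C : Space) (v : Map (Rn a) C), VV X p t v ∧
      Vale.Agent.P251.St.Homotopic (X := (⟨K × (Y × (Fin a → ℝ))⟩ : Space))
        (Y := (⟨(ι → ℂ) × (Y × C.carrier)⟩ : Space))
        (app (g ⊗ₘ (𝟙 Y ⊗ₘ toHom v))) (fun _ => ∞)

theorem vecHom_eq_kap {V : Type} [Group V] {κ ι : Type} [Fintype κ] [DecidableEq κ] [Fintype ι]
    [DecidableEq ι] {E : Type} [TopologicalSpace E] [MulAction V E] {U : Rep V κ}
    (F : Frame E U ι) [CompactSpace E] [T2Space E] [LocallyCompactSpace E]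
    {B : Type} [TopologicalSpace B] [CompactSpace B] [T2Space B] [LocallyCompactSpace B]
    {q : E → B} (hq : IsQuo V q) :
    vecHom F hq = kap (B := LC.of B) (F.bun hq).compl := by
  apply LC.hom_ext
  intro x
  rfl

theorem eulNull [hp : Fact p.Prime] (X : Ctx S) (hN : NilStmt S p X)
    (hT3 : H46.T3Prop p X.o) {t : ℕ} (hLin : LinStage X p t) (V : TClass)
    (hV : ∀ {a : ℕ} {C : Space} (v : Map (Rn a) C), VV X p t v → ∀ (ι : Type) [Fintype ι],
      V.mem (toHom v ⊗ₘ 𝟙 (Th.CC ι)))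
    (K : ℕ → RingA T) (hK : ∀ i, IsMoravaK S p i (K i))
    (W : Type) [Group W] [Finite W] [Nontrivial W] (hW : IsPGroup p W)
    (hRep : ∀ (κ : Type) [Fintype κ] [DecidableEq κ] (χ : κ → (W →* rootsOfUnity p ℂ)),
      (∀ k, χ k ≠ 1) → ∃ l : List (Subgroup W), (∀ B ∈ l, B ≠ ⊤) ∧
        H40.Le (repPB (H46.diagRep χ)) (H40.plist (l.map H40.starQ)))
    (Y : Space) (hY : Vale.Agent.P251.St.FC Y)
    (hA : (∀ x y : W, x * y = y * x) → ∀ j, j + Group.rank W ≤ t →
      Vale.Agent.P251.St.Acyclic (K j).obj (S.obj Y)) :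
    ∃ l : List (Subgroup W), (∀ B ∈ l, B ≠ ⊤) ∧
      ∀ m, N V (H40.EE W (m + 1)) (H40.plist (l.map H40.starQ)) (GSpace.triv W Y) := by
  let _ := Fintype.ofFinite W
  have hA' : ∀ j < H46.htV W t, Vale.Agent.P251.St.Acyclic (K j).obj (S.obj Y) := by
    intro j hj
    by_cases hc : ∀ x y : W, x * y = y * x
    · rw [H46.htV_comm hc] at hj
      exact hA hc j (by omega)
    · rw [H46.htV_of_not hc] at hj
      exact absurd hj (Nat.not_lt_zero j)
  obtain ⟨q, L, hq, hco⟩ := NilStmt_coef hp.out X hN K hK Y hY _ hA'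
  obtain ⟨κ, _, _, χ, hχ, hm⟩ := H46.eul_main X.o hT3 W hW t L
  obtain ⟨l, hl, hle⟩ := hRep κ χ hχ
  refine ⟨l, hl, fun m => ?_⟩
  obtain ⟨M, c, hc⟩ := hm (m + 1)
  set J := kill X.M.R X.e (S.obj Y) with hJ
  have h1 : q • vv p t X.o.law ^ M • H46.eulEM X.o (H46.diagRep χ) (m + 1) ∈
      J.I (LC.of (H46.BM W (m + 1))) := by
    rw [hc]
    exact J.sum_smul_mem (fun i => vv p i X.o.law) q L hco c
  have hr := H46.isRank_bunEM (H46.diagRep χ) (m + 1) rfl
  have hr' : (H46.bunEM (H46.diagRep χ) (m + 1)).compl.IsRank (m * Fintype.card κ) :=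
    H46.isRank_kapEM (H46.diagRep χ) (m + 1) rfl (by ring)
  have h2 : ∀ W' : Bun (LC.of (H46.BM W (m + 1))) (Fin (m + 1) × κ),
      W' = H46.bunEM (H46.diagRep χ) (m + 1) →
        FC W'.compl.tot ∧ q • vv p t X.o.law ^ M •
          (thK X.e X.M.R).map (kap W'.compl) (X.o.lin (Fin (m + 1) × κ)) ∈ J.I W'.compl.tot := by
    rintro _ rfl
    have g0 : GoodBase (thK X.e X.M.R) (LC.of (H46.BM W (m + 1))) := inferInstance
    have g1 := g0.tot _ hr
    have g2 := g0.tot _ hr'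
    exact ⟨H46.fc_kapEM _ _, zsmul_map_kap_mem X.o J (m := m * Fintype.card κ) _ hr (by
      rw [Fintype.card_prod, Fintype.card_fin]
      ring) h1⟩
  obtain ⟨h3, h4⟩ := h2 _ (H46.bun_frameSph (V := W) (H46.diagRep χ) (m + 1))
  rw [← vecHom_eq_kap (H46.frameSph (V := W) (H46.diagRep χ) (m + 1)) H46.isQuoSph] at h4
  obtain ⟨a, C, v, hv, hnull⟩ := hLin _ _ _ (toLC Y) q M h3 (Vale.Agent.P251.St.fc_toLC hY) hq h4
  have h5 := bridgePM_null (E := H733.sphP W W (m + 1))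
    (H46.frameSph (V := W) (H46.diagRep χ) (m + 1)) H46.isQuoSph (toHom v) hnull
  exact H40.Fact.mapLe (H40.Le.refl _) hle (N_of_htpy _ (hV v hv (Fin (m + 1) × κ)) _
    (fun e x a => at_bridgePM _ _ _ _) h5)

end Vale.Agent.P241.H302
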