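import Vale.Agent.P241.H302.NullOf
import Vale.Agent.P241.H808.Null2
import Vale.Agent.P241.H40.ClaimT
import Vale.Agent.P241.H46.EulMain

/-!
# P241: representations and stars

`repStar` : for a finite family `χ` of nontrivial characters of order `p` of a finite group `W` there
is a pointed `W`-map from the sum of the `χ k` to a product of stars `star (W / B)`, `B` proper,
which maps `0` to `0`.

The map of `ℂ_χ` to `star (W / ker χ)` given by a point `a` of the unit circle and a small `r` is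
`z ↦ (g ↦ max 0 (r |z| - |z conj (χ g) - |z| a|))`.
-/

open CategoryTheory MonoidalCategory Filter Topology OnePoint Matrix

open Vale.Agent.P251.G Vale.Agent.P251.G.LC
open Vale.Agent.P241.St Vale.Agent.P241.EUL Vale.Agent.P241.H808 Vale.Agent.P241.H733

set_option linter.unusedSectionVars false

noncomputable section

namespace Vale.Agent.P241.H302

/-! ### The function on the plane -/

/-- `max 0 (r |z| - |z - |z| a|)` -/
def bump (r : ℝ) (a z : ℂ) : ℝ := max 0 (r * ‖z‖ - ‖z - (‖z‖ : ℂ) * a‖)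

theorem bump_nonneg (r : ℝ) (a z : ℂ) : 0 ≤ bump r a z := le_max_left _ _

theorem continuous_bump (r : ℝ) (a : ℂ) : Continuous (bump r a) := by
  unfold bump
  have h : Continuous fun z : ℂ => ((‖z‖ : ℝ) : ℂ) := Complex.continuous_ofReal.comp continuous_norm
  exact continuous_const.max ((continuous_const.mul continuous_norm).sub
    ((continuous_id.sub (h.mul continuous_const)).norm))

theorem bump_zero (r : ℝ) (a : ℂ) : bump r a 0 = 0 := by simp [bump]

theorem lt_of_bump_ne_zero {r : ℝ} {a z : ℂ} (h : bump r a z ≠ 0) :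
    ‖z - (‖z‖ : ℂ) * a‖ < r * ‖z‖ := by
  by_contra hc
  push Not at hc
  exact h (max_eq_left (by linarith))

/-- two rotates of `z` by distant numbers are not both near `|z| a` -/
theorem bump_disj {r : ℝ} {a z c c' : ℂ} (hc : ‖c‖ = 1) (hc' : ‖c'‖ = 1) (h : 2 * r ≤ ‖c - c'‖)
    (h1 : bump r a (z * star c) ≠ 0) (h2 : bump r a (z * star c') ≠ 0) : False := by
  have h3 := lt_of_bump_ne_zero h1
  have h4 := lt_of_bump_ne_zero h2
  have e1 : ‖z * star c‖ = ‖z‖ := by rw [norm_mul, norm_star, hc, mul_one]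
  have e2 : ‖z * star c'‖ = ‖z‖ := by rw [norm_mul, norm_star, hc', mul_one]
  rw [e1] at h3
  rw [e2] at h4
  have h5 : ‖z‖ * ‖c - c'‖ = ‖(z * star c - (‖z‖ : ℂ) * a) - (z * star c' - (‖z‖ : ℂ) * a)‖ := by
    have h6 : (z * star c - (‖z‖ : ℂ) * a) - (z * star c' - (‖z‖ : ℂ) * a) =
        z * star (c - c') := by
      rw [star_sub]
      ring
    rw [h6, norm_mul, norm_star]
  have h7 := norm_sub_le (z * star c - (‖z‖ : ℂ) * a) (z * star c' - (‖z‖ : ℂ) * a)
  have h8 : ‖z‖ * (2 * r) ≤ ‖z‖ * ‖c - c'‖ := mul_le_mul_of_nonneg_left h (norm_nonneg z)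
  rw [h5] at h8
  linarith

theorem exists_bump_ge {r : ℝ} (hr : 0 < r) : ∃ A : Finset ℂ, ∀ z : ℂ, ∃ a ∈ A,
    r / 2 * ‖z‖ ≤ bump r a z := by
  obtain ⟨t, -, ht, hs⟩ := (isCompact_sphere (0 : ℂ) 1).finite_cover_balls (e := r / 2)
    (by positivity)
  have key : ∀ u : ℂ, ‖u‖ = 1 → ∃ a ∈ ht.toFinset, ‖u - a‖ < r / 2 := by
    intro u hu
    have := hs (by simpa using hu : u ∈ Metric.sphere (0 : ℂ) 1)
    simp only [Set.mem_iUnion] at this
    obtain ⟨a, ha, h⟩ := this
    exact ⟨a, by simpa using ha, by simpa [dist_eq_norm] using h⟩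
  refine ⟨ht.toFinset, fun z => ?_⟩
  by_cases hz : z = 0
  · subst hz
    obtain ⟨a, ha, -⟩ := key 1 (by simp)
    exact ⟨a, ha, by simp [bump_zero]⟩
  · have hz' : (‖z‖ : ℂ) ≠ 0 := by exact_mod_cast norm_ne_zero_iff.2 hz
    obtain ⟨a, ha, h⟩ := key (z / ‖z‖) (by
      rw [norm_div, Complex.norm_real, norm_norm, div_self (norm_ne_zero_iff.2 hz)])
    refine ⟨a, ha, le_max_of_le_right ?_⟩
    have h1 : z - (‖z‖ : ℂ) * a = (‖z‖ : ℂ) * (z / ‖z‖ - a) := by
      field_simp
    rw [h1, norm_mul, Complex.norm_real, norm_norm]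
    have h2 : ‖z‖ * ‖z / (‖z‖ : ℂ) - a‖ ≤ ‖z‖ * (r / 2) :=
      mul_le_mul_of_nonneg_left h.le (norm_nonneg z)
    linarith

theorem exists_sep (p : ℕ) [Fact p.Prime] : ∃ r : ℝ, 0 < r ∧ ∀ x y : rootsOfUnity p ℂ, x ≠ y →
    2 * r ≤ ‖((x : ℂˣ) : ℂ) - ((y : ℂˣ) : ℂ)‖ := by
  have hf := H122.finite_roots (p := p)
  let P := {z : rootsOfUnity p ℂ × rootsOfUnity p ℂ // z.1 ≠ z.2}
  have : Finite P := Subtype.finite
  rcases isEmpty_or_nonempty P with h | h
  · exact ⟨1, one_pos, fun x y hxy => (h.false ⟨(x, y), hxy⟩).elim⟩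
  · obtain ⟨z, hz⟩ := Finite.exists_min fun z : P => ‖((z.1.1 : ℂˣ) : ℂ) - ((z.1.2 : ℂˣ) : ℂ)‖
    refine ⟨‖((z.1.1 : ℂˣ) : ℂ) - ((z.1.2 : ℂˣ) : ℂ)‖ / 2, ?_, fun x y hxy => ?_⟩
    · have h1 : ((z.1.1 : ℂˣ) : ℂ) - ((z.1.2 : ℂˣ) : ℂ) ≠ 0 := by
        rw [sub_ne_zero]
        intro h2
        exact z.2 (Subtype.ext (Units.ext h2))
      have := norm_pos_iff.2 h1
      linarith
    · have := hz ⟨(x, y), hxy⟩
      linarith

/-! ### The map of one character -/

section char

variable {p : ℕ} [hp : Fact p.Prime] {W : Type} [Group W] [Finite W]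

theorem norm_root (z : rootsOfUnity p ℂ) : ‖((z : ℂˣ) : ℂ)‖ = 1 := by
  have h1 : ((z : ℂˣ) : ℂ) ^ p = 1 := by
    have := z.2
    rw [mem_rootsOfUnity] at this
    rw [← Units.val_pow_eq_pow_val, this, Units.val_one]
  exact Complex.norm_eq_one_of_pow_eq_one h1 hp.out.ne_zero

/-- the value of the character on a coset of its kernel -/
def cval (χ : W →* rootsOfUnity p ℂ) (i : W ⧸ χ.ker) : ℂ := ((QuotientGroup.kerLift χ i : ℂˣ) : ℂ)

theorem cval_one (χ : W →* rootsOfUnity p ℂ) : cval χ ((1 : W) : W ⧸ χ.ker) = 1 := by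
  unfold cval
  rw [QuotientGroup.kerLift_mk, map_one]
  rfl

theorem cval_smul (χ : W →* rootsOfUnity p ℂ) (g : W) (i : W ⧸ χ.ker) :
    cval χ (g • i) = ((χ g : ℂˣ) : ℂ) * cval χ i := by
  obtain ⟨h, rfl⟩ := QuotientGroup.mk_surjective i
  unfold cval
  rw [MulAction.Quotient.smul_mk, QuotientGroup.kerLift_mk, QuotientGroup.kerLift_mk, smul_eq_mul,
    map_mul]
  rfl

/-- the map of `ℂ_χ` to `star (W / ker χ)` -/
def charStar (χ : W →* rootsOfUnity p ℂ) {r : ℝ}
    (hr : ∀ x y : rootsOfUnity p ℂ, x ≠ y → 2 * r ≤ ‖((x : ℂˣ) : ℂ) - ((y : ℂˣ) : ℂ)‖) (a z : ℂ) :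
    H733.Star (W ⧸ χ.ker) :=
  ⟨fun i => bump r a (z * star (cval χ i)), fun _ => bump_nonneg _ _ _, fun i j hi hj => by
    by_contra hij
    exact bump_disj (norm_root _) (norm_root _)
      (hr _ _ fun h => hij (QuotientGroup.kerLift_injective χ h)) hi hj⟩

variable (χ : W →* rootsOfUnity p ℂ) {r : ℝ}
    (hr : ∀ x y : rootsOfUnity p ℂ, x ≠ y → 2 * r ≤ ‖((x : ℂˣ) : ℂ) - ((y : ℂˣ) : ℂ)‖) (a z : ℂ)

theorem charStar_apply (i : W ⧸ χ.ker) : charStar χ hr a z i = bump r a (z * star (cval χ i)) := rfl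

theorem charStar_zero : charStar χ hr a 0 = 0 := by
  ext i
  rw [charStar_apply, zero_mul, bump_zero]
  rfl

theorem continuous_charStar : Continuous (charStar χ hr a) :=
  H733.Star.continuous_mk fun _ => (continuous_bump r a).comp (continuous_id.mul continuous_const)

theorem charStar_smul (g : W) :
    charStar χ hr a (((χ g : ℂˣ) : ℂ) * z) = g • charStar χ hr a z := by
  ext i
  rw [H733.Star.smul_apply, charStar_apply, charStar_apply, cval_smul]
  congr 1
  have h1 : ((χ g⁻¹ : ℂˣ) : ℂ) * ((χ g : ℂˣ) : ℂ) = 1 := by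
    rw [← Units.val_mul, ← Subgroup.coe_mul, ← map_mul, inv_mul_cancel, map_one]
    rfl
  have h2 : ((χ g⁻¹ : ℂˣ) : ℂ) * star ((χ g⁻¹ : ℂˣ) : ℂ) = 1 := H46.root_mul_star _
  have h3 : star ((χ g⁻¹ : ℂˣ) : ℂ) = ((χ g : ℂˣ) : ℂ) := by
    have h4 : ((χ g⁻¹ : ℂˣ) : ℂ) ≠ 0 := Units.ne_zero _
    exact mul_left_cancel₀ h4 (h2.trans h1.symm)
  rw [star_mul', h3]
  ring

theorem le_nrm_charStar [Fintype (W ⧸ χ.ker)] : bump r a z ≤ (charStar χ hr a z).nrm := by
  have h := Finset.single_le_sum (f := fun i => charStar χ hr a z i)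
    (fun i _ => (charStar χ hr a z).nonneg i) (Finset.mem_univ ((1 : W) : W ⧸ χ.ker))
  have h1 : charStar χ hr a z ((1 : W) : W ⧸ χ.ker) = bump r a z := by
    rw [charStar_apply, cval_one, star_one, mul_one]
  rw [← h1]
  exact h

end char

/-! ### The map of a family of characters -/

section family

variable {p : ℕ} [hp : Fact p.Prime] {W : Type} [Group W] [Finite W] {κ : Type} [Fintype κ]
  [DecidableEq κ] (χ : κ → (W →* rootsOfUnity p ℂ)) {r : ℝ}
    (hr : ∀ x y : rootsOfUnity p ℂ, x ≠ y → 2 * r ≤ ‖((x : ℂˣ) : ℂ) - ((y : ℂˣ) : ℂ)‖)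

/-- the list of the kernels -/
def kerL (L : List (κ × ℂ)) : List (Subgroup W) := L.map fun x => (χ x.1).ker

/-- the product of the stars -/
abbrev starL (L : List (κ × ℂ)) : PB W := PB.list ((kerL χ L).map H40.starQ)

/-- the map to the product of the stars -/
def famMap : (L : List (κ × ℂ)) → (κ → ℂ) → (starL χ L).B.carrier
  | [], _ => ()
  | x :: L, z => ((fun _ => charStar (χ x.1) hr x.2 (z x.1) :
      Fin 1 → H733.Star (W ⧸ (χ x.1).ker)), famMap L z)

/-- the size of a point of a star -/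
def nrm1 (I : Type) [Finite I] (w : Fin 1 → H733.Star I) : ℝ :=
  letI := Fintype.ofFinite I
  (w 0).nrm

theorem nrm1_nonneg (I : Type) [Finite I] (w : Fin 1 → H733.Star I) : 0 ≤ nrm1 I w := by
  let _ := Fintype.ofFinite I
  exact H733.Star.nrm_nonneg _

theorem continuous_nrm1 (I : Type) [Finite I] : Continuous (nrm1 I) := by
  let _ := Fintype.ofFinite I
  exact H733.Star.continuous_nrm.comp (continuous_apply 0)

/-- the size of a point in the product of the stars -/
def famNrm : (L : List (κ × ℂ)) → (starL χ L).B.carrier → ℝ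
  | [], _ => 0
  | x :: L, w => nrm1 (W ⧸ (χ x.1).ker) w.1 + famNrm L w.2

theorem famMap_zero (L : List (κ × ℂ)) : famMap χ hr L 0 = (starL χ L).b := by
  induction L with
  | nil => rfl
  | cons x L ih =>
    refine Prod.ext (funext fun _ => ?_) ih
    exact charStar_zero (χ x.1) hr x.2

theorem continuous_famMap (L : List (κ × ℂ)) : Continuous (famMap χ hr L) := by
  induction L with
  | nil => exact continuous_const
  | cons x L ih =>
    refine Continuous.prodMk ?_ ih
    exact continuous_pi fun _ => (continuous_charStar (χ x.1) hr x.2).comp (continuous_apply x.1)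

theorem famMap_smul (L : List (κ × ℂ)) (g : W) (z : κ → ℂ) :
    famMap χ hr L (fun k => ((χ k g : ℂˣ) : ℂ) * z k) = g • famMap χ hr L z := by
  induction L with
  | nil => rfl
  | cons x L ih =>
    refine Prod.ext (funext fun _ => ?_) ih
    exact charStar_smul (χ x.1) hr x.2 (z x.1) g

theorem continuous_famNrm (L : List (κ × ℂ)) : Continuous (famNrm χ L) := by
  induction L with
  | nil => exact continuous_const
  | cons x L ih =>
    exact ((continuous_nrm1 (W ⧸ (χ x.1).ker)).comp continuous_fst).add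
      (ih.comp continuous_snd)

theorem famNrm_nonneg (L : List (κ × ℂ)) (w : (starL χ L).B.carrier) : 0 ≤ famNrm χ L w := by
  induction L with
  | nil => exact le_rfl
  | cons x L ih => exact add_nonneg (nrm1_nonneg _ _) (ih w.2)

theorem le_famNrm (L : List (κ × ℂ)) (z : κ → ℂ) (x : κ × ℂ) (hx : x ∈ L) :
    bump r x.2 (z x.1) ≤ famNrm χ L (famMap χ hr L z) := by
  induction L with
  | nil => exact absurd hx List.not_mem_nil
  | cons y L ih =>
    let _ := Fintype.ofFinite (W ⧸ (χ y.1).ker)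
    rcases List.mem_cons.1 hx with rfl | h
    · exact (le_nrm_charStar (χ x.1) hr x.2 (z x.1)).trans
        (le_add_of_nonneg_right (famNrm_nonneg χ L _))
    · exact (ih h).trans (le_add_of_nonneg_left (nrm1_nonneg _ _))

end family

/-- **The representations map to stars.** -/
theorem repStar {p : ℕ} [hp : Fact p.Prime] (W : Type) [Group W] [Finite W] (κ : Type) [Fintype κ]
    [DecidableEq κ] (χ : κ → (W →* rootsOfUnity p ℂ)) (hχ : ∀ k, χ k ≠ 1) :
    ∃ l : List (Subgroup W), (∀ B ∈ l, B ≠ ⊤) ∧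
      H40.Le (repPB (H46.diagRep χ)) (PB.list (l.map H40.starQ)) := by
  obtain ⟨r, hr0, hr⟩ := exists_sep p
  obtain ⟨A, hA⟩ := exists_bump_ge hr0
  let L : List (κ × ℂ) := (Finset.univ ×ˢ A).toList
  refine ⟨kerL χ L, ?_, PM.ofProper (X := (repPB (H46.diagRep χ)).B) (Y := (starL χ L).B)
    (famMap χ hr L) (continuous_famMap χ hr L) ?_ ?_, ?_⟩
  · intro B hB
    obtain ⟨x, -, rfl⟩ := List.mem_map.1 hB
    intro h
    exact hχ x.1 (MonoidHom.ker_eq_top_iff.1 h)
  · refine tendsto_cocompact_of (famNrm χ L) (continuous_famNrm χ L) ?_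
    have h1 : ∀ z : κ → ℂ, r / 2 * ‖z‖ ≤ famNrm χ L (famMap χ hr L z) := by
      intro z
      have h2 : ‖z‖ ≤ famNrm χ L (famMap χ hr L z) / (r / 2) := by
        rw [pi_norm_le_iff_of_nonneg (div_nonneg (famNrm_nonneg χ L _) (by positivity))]
        intro k
        obtain ⟨a, ha, h⟩ := hA (z k)
        rw [le_div_iff₀ (by positivity), mul_comm]
        exact h.trans (le_famNrm χ hr L z (k, a) (by simp [L, ha]))
      rw [le_div_iff₀ (by positivity), mul_comm] at h2
      exact h2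
    exact tendsto_atTop_mono h1 ((tendsto_norm_cocompact_atTop (E := κ → ℂ)).const_mul_atTop
      (by positivity))
  · intro g z
    have h1 : (g • z : (repPB (H46.diagRep χ)).B.carrier) =
        (fun k => ((χ k g : ℂˣ) : ℂ) * (show κ → ℂ from z) k : κ → ℂ) := by
      funext k
      change ((H46.diagRep χ g : Matrix κ κ ℂ) *ᵥ (show κ → ℂ from z)) k = _
      rw [H46.diagRep_coe, mulVec_diagonal]
    rw [h1]
    exact famMap_smul χ hr L g z
  · exact congrArg OnePoint.some (famMap_zero χ hr L)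

end Vale.Agent.P241.H302
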