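import Vale.Agent.P241.H132.Key
import Vale.Agent.P241.H302.RepStar

/-!
# P241: the input `RepLe` of Claim T
-/

namespace Vale.Agent.P241.H302

/-- **(E2)** -/
theorem repLe (p : ℕ) [Fact p.Prime] : H132.RepLe p :=
  fun W _ _ _ κ _ _ χ hχ => repStar W κ χ hχ

end Vale.Agent.P241.H302
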