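import Vale.Agent.P241.EUL.Frame
import Vale.Agent.P241.St.Defs
import Vale.Agent.P251.St.ToLC
import Vale.Agent.P251.G.BundleMap

/-!
# P241, EUL bridge (point-set part)

`E` a compact `V`-space, `F : Frame E U ι` a frame of the unitary representation `U` of `V` on
`ℂ^κ`, `q : E → B` the quotient by `V`, `(F.bun hq).compl` the complement over `B` of the bundle of
`F` in the trivial bundle `ℂ^ι`, with total space `K`. If the pointed map
`(K × Z)⁺ → (ℂ^ι × Z')⁺`, `(p, z) ↦ (vec p, w z)` is null-homotopic, then the `V`-map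
`(E × (Z × ℂ^ι))⁺ → (U × (Z' × ℂ^ι))⁺`, `(e, z, x) ↦ (0, w z, x)` is `V`-null-homotopic.
-/

open CategoryTheory MonoidalCategory Filter Topology OnePoint Matrix

set_option linter.unusedSectionVars false

noncomputable section

namespace Vale.Agent.P241.H302

open Vale.Agent.P251.G Vale.Agent.P251.G.LC Vale.Agent.P251.St Vale.Agent.P241.St
  Vale.Agent.P241.EUL

/-! ### Properness -/

theorem tendsto_cocompact_of {X Y : Type*} [TopologicalSpace X] [TopologicalSpace Y] {f : X → Y}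
    (g : Y → ℝ) (hg : Continuous g) (h : Tendsto (fun x => g (f x)) (cocompact X) atTop) :
    Tendsto f (cocompact X) (cocompact Y) := by
  intro s hs
  obtain ⟨t, ht, hts⟩ := mem_cocompact.mp hs
  obtain ⟨B, hB⟩ := (ht.image hg).bddAbove
  have h1 : {x | B < g (f x)} ∈ cocompact X := h (Ioi_mem_atTop B)
  refine mem_map.mpr (mem_of_superset h1 fun x hx => hts fun hxt => ?_)
  exact absurd (hB ⟨f x, hxt, rfl⟩) (not_le.mpr hx)

theorem tendsto_nsq {ι : Type} [Fintype ι] :
    Tendsto (nsq : (ι → ℂ) → ℝ) (cocompact (ι → ℂ)) atTop := by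
  rw [cocompact_vec]; exact tendsto_comap

/-! ### Concatenation of equivariant homotopies -/

section trans

variable {V : Type} [Group V] {X Y : GSpace V}

theorem ghomotopic_trans {f g h : X.und.Pt → Y.und.Pt} (h1 : GHomotopic (X := X) (Y := Y) f g)
    (h2 : GHomotopic (X := X) (Y := Y) g h) : GHomotopic (X := X) (Y := Y) f h := by
  obtain ⟨H, ⟨⟨Hc, Hp⟩, He⟩, H0, H1⟩ := h1
  obtain ⟨K, ⟨⟨Kc, Kp⟩, Ke⟩, K0, K1⟩ := h2
  have hf : Continuous f := by
    rw [← H0]; exact Hc.comp (continuous_const.prodMk continuous_id)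
  have hg : Continuous g := by
    rw [← K0]; exact Kc.comp (continuous_const.prodMk continuous_id)
  have hh : Continuous h := by
    rw [← K1]; exact Kc.comp (continuous_const.prodMk continuous_id)
  let A : ContinuousMap.Homotopy (⟨f, hf⟩ : C(X.und.Pt, Y.und.Pt)) ⟨g, hg⟩ :=
    { toFun := fun p => H p.1 p.2
      continuous_toFun := Hc
      map_zero_left := fun x => congrFun H0 x
      map_one_left := fun x => congrFun H1 x }
  let B : ContinuousMap.Homotopy (⟨g, hg⟩ : C(X.und.Pt, Y.und.Pt)) ⟨h, hh⟩ :=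
    { toFun := fun p => K p.1 p.2
      continuous_toFun := Kc
      map_zero_left := fun x => congrFun K0 x
      map_one_left := fun x => congrFun K1 x }
  have key : ∀ t : unitInterval, (∃ s, ∀ x, (A.trans B) (t, x) = H s x) ∨
      (∃ s, ∀ x, (A.trans B) (t, x) = K s x) := by
    intro t
    by_cases ht : (t : ℝ) ≤ 1 / 2
    · left
      refine ⟨⟨2 * t, (unitInterval.mul_pos_mem_iff zero_lt_two).2 ⟨t.2.1, ht⟩⟩, fun x => ?_⟩
      rw [ContinuousMap.Homotopy.trans_apply, dif_pos ht]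
      rfl
    · right
      refine ⟨⟨2 * t - 1, unitInterval.two_mul_sub_one_mem_iff.2 ⟨(not_le.1 ht).le, t.2.2⟩⟩,
        fun x => ?_⟩
      rw [ContinuousMap.Homotopy.trans_apply, dif_neg ht]
      rfl
  refine ⟨fun t x => (A.trans B) (t, x), ⟨⟨(A.trans B).continuous, fun t => ?_⟩, fun t => ?_⟩,
    ?_, ?_⟩
  · rcases key t with ⟨s, hs⟩ | ⟨s, hs⟩
    · exact (hs _).trans (Hp s)
    · exact (hs _).trans (Kp s)
  · intro g x
    rcases key t with ⟨s, hs⟩ | ⟨s, hs⟩
    · change (A.trans B) (t, X.smul g x) = Y.smul g ((A.trans B) (t, x))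
      rw [hs, hs, He s g x]
    · change (A.trans B) (t, X.smul g x) = Y.smul g ((A.trans B) (t, x))
      rw [hs, hs, Ke s g x]
  · funext x; exact (A.trans B).map_zero_left x
  · funext x; exact (A.trans B).map_one_left x

end trans

/-! ### Representation spaces -/

section rep

variable {V : Type} [Group V] {κ : Type} [Fintype κ] [DecidableEq κ]

/-- the action of `V` on `ℂ^κ` -/
abbrev repAct (U : Rep V κ) : MulAction V (κ → ℂ) where
  smul g x := (U g : Matrix κ κ ℂ) *ᵥ x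
  one_smul x := by
    change (U 1 : Matrix κ κ ℂ) *ᵥ x = x
    rw [map_one]; exact one_mulVec x
  mul_smul g h x := by
    change (U (g * h) : Matrix κ κ ℂ) *ᵥ x = (U g : Matrix κ κ ℂ) *ᵥ ((U h : Matrix κ κ ℂ) *ᵥ x)
    rw [map_mul, mulVec_mulVec]; rfl

/-- the `V`-space `ℂ^κ` (its one-point compactification is the representation sphere) -/
def repSpace (U : Rep V κ) : GSpace V :=
  letI : MulAction V (κ → ℂ) := repAct U
  haveI : ContinuousConstSMul V (κ → ℂ) :=
    ⟨fun g => (by fun_prop : Continuous fun x : κ → ℂ => (U g : Matrix κ κ ℂ) *ᵥ x)⟩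
  ⟨κ → ℂ⟩

/-- the space `ℂ^ι` -/
abbrev Cs (ι : Type) [Fintype ι] : Space := ⟨ι → ℂ⟩

end rep

/-! ### The maps -/

section maps

variable {V : Type} [Group V] {κ ι : Type} [Fintype κ] [DecidableEq κ] [Fintype ι]
  [DecidableEq ι] {E : Type} [TopologicalSpace E] [MulAction V E] {U : Rep V κ}
  (F : Frame E U ι)

/-- the angle -/
def ang (t : unitInterval) : ℝ := Real.pi / 2 * t

theorem continuous_ang : Continuous ang := by unfold ang; fun_prop

@[simp] theorem ang_zero : ang 0 = 0 := by simp [ang]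
@[simp] theorem ang_one : ang 1 = Real.pi / 2 := by simp [ang]

/-- the coordinate in `U` -/
def cU (e : E) (x : ι → ℂ) : κ → ℂ := (F.R e)ᴴ *ᵥ x

/-- the component in the image of the frame -/
def cP (e : E) (x : ι → ℂ) : ι → ℂ := F.R e *ᵥ cU F e x

theorem continuous_cU : Continuous fun p : E × (ι → ℂ) => cU F p.1 p.2 :=
  (F.cont.comp continuous_fst).matrix_conjTranspose.matrix_mulVec continuous_snd

theorem continuous_cP : Continuous fun p : E × (ι → ℂ) => cP F p.1 p.2 :=
  (F.cont.comp continuous_fst).matrix_mulVec (continuous_cU F)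

theorem cU_equi (g : V) (e : E) (x : ι → ℂ) :
    cU F (g • e) x = (U g : Matrix κ κ ℂ) *ᵥ cU F e x := by
  unfold cU
  rw [F.equi', conjTranspose_mul, conjTranspose_conjTranspose, mulVec_mulVec]

theorem cP_inv (g : V) (e : E) (x : ι → ℂ) : cP F (g • e) x = cP F e x := by
  unfold cP cU
  rw [mulVec_mulVec, mulVec_mulVec, F.mul_invariant]

theorem nsq_cP (e : E) (x : ι → ℂ) : nsq (cP F e x) = nsq (cU F e x) :=
  nsq_mulVec (by rw [F.isom, one_mulVec])

theorem nsq_eq_form {μ : Type} [Fintype μ] (M : Matrix μ ι ℂ) (x : ι → ℂ) :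
    ((nsq (M *ᵥ x) : ℝ) : ℂ) = star x ⬝ᵥ ((Mᴴ * M) *ᵥ x) := by
  rw [nsq_eq_dotProduct, star_mulVec, ← dotProduct_mulVec, mulVec_mulVec]

/-- Pythagoras -/
theorem nsq_split (e : E) (x : ι → ℂ) (a b : ℝ) (hab : a ^ 2 + b ^ 2 = 1) :
    nsq ((a : ℂ) • cU F e x) + nsq (x - cP F e x + (b : ℂ) • cP F e x) = nsq x := by
  have hidem : F.R e * (F.R e)ᴴ * (F.R e * (F.R e)ᴴ) = F.R e * (F.R e)ᴴ := by
    rw [Matrix.mul_assoc, ← Matrix.mul_assoc (F.R e)ᴴ, F.isom, Matrix.one_mul]
  set P : Matrix ι ι ℂ := F.R e * (F.R e)ᴴ with hP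
  have hPh : Pᴴ = P := by
    rw [hP, conjTranspose_mul, conjTranspose_conjTranspose]
  have h1 : (a : ℂ) • cU F e x = ((a : ℂ) • (F.R e)ᴴ) *ᵥ x := by
    rw [smul_mulVec]; rfl
  have h2 : x - cP F e x + (b : ℂ) • cP F e x = (1 - P + (b : ℂ) • P) *ᵥ x := by
    rw [add_mulVec, sub_mulVec, one_mulVec, smul_mulVec]
    unfold cP cU
    rw [mulVec_mulVec]
  have h3 : ((a : ℂ) • (F.R e)ᴴ)ᴴ * ((a : ℂ) • (F.R e)ᴴ) = ((a ^ 2 : ℝ) : ℂ) • P := by
    rw [conjTranspose_smul, conjTranspose_conjTranspose, Matrix.smul_mul, Matrix.mul_smul,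
      smul_smul]
    congr 1
    simp only [Complex.star_def, Complex.conj_ofReal]
    push_cast
    ring
  have h4 : (1 - P + (b : ℂ) • P)ᴴ * (1 - P + (b : ℂ) • P) =
      1 - P + ((b ^ 2 : ℝ) : ℂ) • P := by
    rw [conjTranspose_add, conjTranspose_sub, conjTranspose_one, hPh, conjTranspose_smul, hPh]
    simp only [Complex.star_def, Complex.conj_ofReal, Matrix.add_mul, Matrix.sub_mul,
      Matrix.mul_add, Matrix.mul_sub, Matrix.one_mul, Matrix.mul_one, Matrix.smul_mul,
      Matrix.mul_smul, hidem]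
    push_cast
    rw [pow_two, mul_smul]
    abel_nf
  have h5 : ((nsq ((a : ℂ) • cU F e x) + nsq (x - cP F e x + (b : ℂ) • cP F e x) : ℝ) : ℂ) =
      ((nsq x : ℝ) : ℂ) := by
    push_cast
    rw [h1, h2, nsq_eq_form, nsq_eq_form, h3, h4, nsq_eq_dotProduct, ← dotProduct_add,
      ← add_mulVec]
    have h6 : ((a ^ 2 : ℝ) : ℂ) • P + (1 - P + ((b ^ 2 : ℝ) : ℂ) • P) = 1 := by
      have h7 : ((a ^ 2 : ℝ) : ℂ) • P + ((b ^ 2 : ℝ) : ℂ) • P = P := by
        rw [← add_smul, ← Complex.ofReal_add, hab, Complex.ofReal_one, one_smul]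
      calc ((a ^ 2 : ℝ) : ℂ) • P + (1 - P + ((b ^ 2 : ℝ) : ℂ) • P)
          = 1 - P + (((a ^ 2 : ℝ) : ℂ) • P + ((b ^ 2 : ℝ) : ℂ) • P) := by abel
        _ = 1 := by rw [h7]; abel
    rw [h6, one_mulVec]
  exact_mod_cast h5

/-- rotation -/
def rotFun (p : (E × (ι → ℂ)) × unitInterval) : (κ → ℂ) × (ι → ℂ) :=
  (((Real.sin (ang p.2) : ℝ) : ℂ) • cU F p.1.1 p.1.2,
    p.1.2 - cP F p.1.1 p.1.2 + ((Real.cos (ang p.2) : ℝ) : ℂ) • cP F p.1.1 p.1.2)

theorem continuous_rotFun : Continuous (rotFun F) := by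
  have h1 : Continuous fun p : (E × (ι → ℂ)) × unitInterval => ((Real.sin (ang p.2) : ℝ) : ℂ) :=
    Complex.continuous_ofReal.comp (Real.continuous_sin.comp (continuous_ang.comp continuous_snd))
  have h2 : Continuous fun p : (E × (ι → ℂ)) × unitInterval => ((Real.cos (ang p.2) : ℝ) : ℂ) :=
    Complex.continuous_ofReal.comp (Real.continuous_cos.comp (continuous_ang.comp continuous_snd))
  have h3 := (continuous_cU F).comp (continuous_fst (X := E × (ι → ℂ)) (Y := unitInterval))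
  have h4 := (continuous_cP F).comp (continuous_fst (X := E × (ι → ℂ)) (Y := unitInterval))
  exact (h1.smul h3).prodMk (((continuous_snd.comp continuous_fst).sub h4).add (h2.smul h4))

theorem nsq_rotFun (p : (E × (ι → ℂ)) × unitInterval) :
    nsq (rotFun F p).1 + nsq (rotFun F p).2 = nsq p.1.2 :=
  nsq_split F p.1.1 p.1.2 _ _ (Real.sin_sq_add_cos_sq _)

variable [CompactSpace E]

theorem tendsto_rotFun : Tendsto (rotFun F) (cocompact ((E × (ι → ℂ)) × unitInterval))
    (cocompact ((κ → ℂ) × (ι → ℂ))) := by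
  refine tendsto_cocompact_of (fun p => nsq p.1 + nsq p.2) (by fun_prop) ?_
  simp only [nsq_rotFun]
  exact (tendsto_nsq.comp (tendsto_snd_cocompact (X := E) (Y := ι → ℂ))).comp
    (tendsto_fst_cocompact (X := E × (ι → ℂ)) (Y := unitInterval))

variable {B : Type} [TopologicalSpace B] {q : E → B} (hq : IsQuo V q)

/-- the total space of the complement -/
abbrev KE : Type := (F.bun hq).compl.E

theorem compl_mem (e : E) (x : ι → ℂ) :
    (F.bun hq).compl.P (q e) *ᵥ (x - cP F e x) = x - cP F e x := by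
  rw [Bun.compl_P, F.bun_P, sub_mulVec, one_mulVec, sub_eq_self]
  unfold cP cU
  rw [mulVec_sub, mulVec_mulVec, mulVec_mulVec, Matrix.mul_assoc (F.R e) ((F.R e)ᴴ) (F.R e),
    F.isom, Matrix.mul_one, sub_self]

/-- `(e, x) ↦ (coordinate of x in U, component of x in the complement)` -/
def spl (p : E × (ι → ℂ)) : (κ → ℂ) × KE F hq :=
  (cU F p.1 p.2, Bun.mkE _ (q p.1) (p.2 - cP F p.1 p.2) (compl_mem F hq p.1 p.2))

theorem continuous_spl : Continuous (spl F hq) :=
  (continuous_cU F).prodMk (Bun.continuous_mkE (hq.quot.continuous.comp continuous_fst)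
    (continuous_snd.sub (continuous_cP F)) _)

theorem tendsto_spl : Tendsto (spl F hq) (cocompact (E × (ι → ℂ)))
    (cocompact ((κ → ℂ) × KE F hq)) := by
  refine tendsto_cocompact_of (fun p => nsq p.1 + nsq (Bun.vec p.2))
    ((continuous_nsq.comp continuous_fst).add (continuous_nsq.comp
      (Bun.continuous_vec.comp continuous_snd))) ?_
  have h : ∀ p : E × (ι → ℂ), nsq (spl F hq p).1 + nsq (Bun.vec (spl F hq p).2) = nsq p.2 := by
    intro p
    have := nsq_split F p.1 p.2 1 0 (by norm_num)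
    simpa [spl] using this
  simp only [h]
  exact tendsto_nsq.comp (tendsto_snd_cocompact (X := E) (Y := ι → ℂ))

end maps

/-! ### Morphisms of `LC` -/

section lc

variable {V : Type} [Group V] {κ ι : Type} [Fintype κ] [DecidableEq κ] [Fintype ι]
  [DecidableEq ι] {E : Type} [TopologicalSpace E] [MulAction V E] {U : Rep V κ}
  (F : Frame E U ι) [CompactSpace E] [T2Space E] [LocallyCompactSpace E]
  {B : Type} [TopologicalSpace B] [CompactSpace B] [T2Space B] [LocallyCompactSpace B]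
  {q : E → B} (hq : IsQuo V q) {Z Z' : LC}

/-- the projection of the total space of the complement to `ℂ^ι` -/
def vecHom : (F.bun hq).compl.tot ⟶ Th.CC ι :=
  LC.ofProper (X := (F.bun hq).compl.tot) (Y := Th.CC ι) Bun.vec Bun.continuous_vec (by
    rw [cocompact_vec, tendsto_comap_iff]
    have h1 : Tendsto (Subtype.val : KE F hq → B × (ι → ℂ)) (cocompact _) (cocompact _) :=
      ((F.bun hq).compl.isClosedEmbedding_val).tendsto_cocompact
    exact (tendsto_nsq.comp (tendsto_snd_cocompact (X := B) (Y := ι → ℂ))).comp h1)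

@[simp] theorem app_vecHom_coe (p : KE F hq) :
    app (vecHom F hq) (p : OnePoint (KE F hq)) = (Bun.vec p : OnePoint (ι → ℂ)) := rfl

/-- the rotation as a morphism -/
def rotHom : LC.of (E × (ι → ℂ)) ⊗ II ⟶ LC.of ((κ → ℂ) × (ι → ℂ)) :=
  LC.ofProper (X := LC.of ((E × (ι → ℂ)) × unitInterval)) (Y := LC.of ((κ → ℂ) × (ι → ℂ)))
    (rotFun F) (continuous_rotFun F) (tendsto_rotFun F)

/-- the splitting as a morphism -/
def splHom : LC.of (E × (ι → ℂ)) ⟶ LC.of ((κ → ℂ) × KE F hq) :=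
  LC.ofProper (X := LC.of (E × (ι → ℂ))) (Y := LC.of ((κ → ℂ) × KE F hq))
    (spl F hq) (continuous_spl F hq) (tendsto_spl F hq)

/-- the source -/
abbrev Src (E ι : Type) [TopologicalSpace E] [T2Space E] [LocallyCompactSpace E] [Fintype ι]
    (Z : LC) : LC := LC.of (E × (Z × (ι → ℂ)))

/-- the target -/
abbrev Tgt (κ ι : Type) [Fintype κ] [Fintype ι] (Z' : LC) : LC := LC.of ((κ → ℂ) × (Z' × (ι → ℂ)))

/-- `(e, z, x) ↦ (e, x), z` -/
def sh1 : Src E ι Z ≅ LC.of ((E × (ι → ℂ)) × Z) :=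
  LC.ofHomeo (X := Src E ι Z) (Y := LC.of ((E × (ι → ℂ)) × Z))
    { toFun := fun p => ((p.1, p.2.2), p.2.1)
      invFun := fun p => (p.1.1, (p.2, p.1.2))
      left_inv := fun _ => rfl
      right_inv := fun _ => rfl
      continuous_toFun := by fun_prop
      continuous_invFun := by fun_prop }

/-- `((u, x), z) ↦ (u, z, x)` -/
def sh2 : LC.of (((κ → ℂ) × (ι → ℂ)) × Z') ≅ Tgt κ ι Z' :=
  LC.ofHomeo (X := LC.of (((κ → ℂ) × (ι → ℂ)) × Z')) (Y := Tgt κ ι Z')
    { toFun := fun p => (p.1.1, (p.2, p.1.2))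
      invFun := fun p => ((p.1, p.2.2), p.2.1)
      left_inv := fun _ => rfl
      right_inv := fun _ => rfl
      continuous_toFun := by fun_prop
      continuous_invFun := by fun_prop }

theorem app_sh2_smash (u : κ → ℂ) (x : ι → ℂ) (z : OnePoint Z') :
    app (sh2 (κ := κ) (ι := ι) (Z' := Z')).hom
      (LC.smash (((u, x) : (κ → ℂ) × (ι → ℂ)) : OnePoint ((κ → ℂ) × (ι → ℂ))) z) =
      LC.smash (u : OnePoint (κ → ℂ)) (LC.smash z (x : OnePoint (ι → ℂ))) := by
  induction z using OnePoint.rec with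
  | infty =>
    rw [LC.smash_infty_right, LC.smash_infty_left, LC.smash_infty_right]
    exact app_infty (sh2 (κ := κ) (ι := ι) (Z' := Z')).hom
  | coe z => rfl

/-- `((u, x), z), t ↦ ((u, x), t), z` -/
def sh3 (A : LC) : LC.of (A × Z) ⊗ II ≅ LC.of (A × unitInterval) ⊗ Z :=
  LC.ofHomeo (X := LC.of ((A × Z) × unitInterval)) (Y := LC.of ((A × unitInterval) × Z))
    { toFun := fun p => ((p.1.1, p.2), p.1.2)
      invFun := fun p => ((p.1.1, p.2), p.1.2)
      left_inv := fun _ => rfl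
      right_inv := fun _ => rfl
      continuous_toFun := by fun_prop
      continuous_invFun := by fun_prop }

/-- the first homotopy -/
def htpy1 (w : Z ⟶ Z') : Src E ι Z ⊗ II ⟶ Tgt κ ι Z' :=
  (sh1.hom ▷ II) ≫ (sh3 (LC.of (E × (ι → ℂ)))).hom ≫ (rotHom F ⊗ₘ w) ≫ sh2.hom

theorem app_htpy1 (w : Z ⟶ Z') (e : E) (z : Z) (x : ι → ℂ) (t : unitInterval) :
    app (htpy1 F w) (LC.smash (((e, (z, x)) : E × (Z × (ι → ℂ))) : OnePoint (E × (Z × (ι → ℂ))))
      (t : OnePoint unitInterval)) =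
    LC.smash ((rotFun F ((e, x), t)).1 : OnePoint (κ → ℂ))
      (LC.smash (app w z) ((rotFun F ((e, x), t)).2 : OnePoint (ι → ℂ))) :=
  app_sh2_smash _ _ _

/-- the second homotopy, from a homotopy `h` downstairs -/
def htpy2 (h : LC.of (KE F hq × Z) ⊗ II ⟶ LC.of ((ι → ℂ) × Z')) : Src E ι Z ⊗ II ⟶ Tgt κ ι Z' :=
  ((sh1.hom ≫ (splHom F hq ▷ Z)) ▷ II) ≫
    ((α_ (Th.CC κ) (LC.of (KE F hq)) Z).hom ▷ II) ≫
    (α_ (Th.CC κ) (LC.of (KE F hq × Z)) II).hom ≫ (Th.CC κ ◁ h) ≫
      (Th.CC κ ◁ (swap (Th.CC ι) Z').hom)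

theorem app_htpy2 (h : LC.of (KE F hq × Z) ⊗ II ⟶ LC.of ((ι → ℂ) × Z')) (e : E) (z : Z)
    (x : ι → ℂ) (t : unitInterval) :
    app (htpy2 F hq h) (LC.smash (((e, (z, x)) : E × (Z × (ι → ℂ))) :
      OnePoint (E × (Z × (ι → ℂ)))) (t : OnePoint unitInterval)) =
    LC.smash (cU F e x : OnePoint (κ → ℂ)) (app (swap (Th.CC ι) Z').hom
      (app h (LC.smash ((((spl F hq (e, x)).2, z) : KE F hq × Z) : OnePoint (KE F hq × Z))
        (t : OnePoint unitInterval)))) := by
  unfold htpy2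
  rw [app_comp, app_comp, app_comp, app_comp]
  change app (Th.CC κ ◁ (swap (Th.CC ι) Z').hom) (app (Th.CC κ ◁ h)
    (LC.smash (cU F e x : OnePoint (κ → ℂ)) (LC.smash
      ((((spl F hq (e, x)).2, z) : KE F hq × Z) : OnePoint (KE F hq × Z))
        (t : OnePoint unitInterval)))) = _
  rw [app_whiskerLeft_smash, app_whiskerLeft_smash]

end lc

/-! ### The theorem -/

section main

variable {V : Type} [Group V] {κ ι : Type} [Fintype κ] [DecidableEq κ] [Fintype ι]
  [DecidableEq ι]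

/-- `(e, z, x) ↦ (0, w z, x)` -/
def dropHom (E : LC) [CompactSpace E] (κ ι : Type) [Fintype κ] [Fintype ι] {Z Z' : LC}
    (w : Z ⟶ Z') : Src E ι Z ⟶ Tgt κ ι Z' :=
  (LC.ofCompact (X := E) (Y := Th.CC κ) (fun _ => 0) continuous_const) ⊗ₘ (w ⊗ₘ 𝟙 (Th.CC ι))

theorem app_dropHom_coe (E : LC) [CompactSpace E] (κ ι : Type) [Fintype κ] [Fintype ι]
    {Z Z' : LC} (w : Z ⟶ Z') (e : E) (z : Z) (x : ι → ℂ) :
    app (dropHom E κ ι w) (((e, (z, x)) : E × (Z × (ι → ℂ))) : OnePoint (E × (Z × (ι → ℂ)))) =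
      LC.smash ((0 : κ → ℂ) : OnePoint (κ → ℂ)) (LC.smash (app w z) (x : OnePoint (ι → ℂ))) :=
  rfl

variable {U : Rep V κ} {E : GSpace V} [CompactSpace E.carrier] (F : Frame E.carrier U ι)
  {B : Type} [TopologicalSpace B] [CompactSpace B] [T2Space B] [LocallyCompactSpace B]
  {q : E.carrier → B} (hq : IsQuo V q) {Z Z' : Space}

/-- the source `E × (Z × ℂ^ι)` -/
abbrev SrcG (E : GSpace V) (ι : Type) [Fintype ι] (Z : Space) : GSpace V :=
  E.prod (GSpace.triv V (Z.prod (Cs ι)))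

/-- the target `U × (Z' × ℂ^ι)` -/
abbrev TgtG (U : Rep V κ) (ι : Type) [Fintype ι] (Z' : Space) : GSpace V :=
  (repSpace U).prod (GSpace.triv V (Z'.prod (Cs ι)))

theorem smul_smash_tgt (g : V) (u : κ → ℂ) (y : (Z'.prod (Cs ι)).Pt) :
    (TgtG U ι Z').smul g (LC.smash (u : OnePoint (κ → ℂ)) y) =
      LC.smash (((U g : Matrix κ κ ℂ) *ᵥ u : κ → ℂ) : OnePoint (κ → ℂ)) y := by
  induction y using OnePoint.rec with
  | infty => rfl
  | coe y => rfl

/-- a homotopy which is equivariant on points of the source is equivariant -/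
theorem isGMap_of_coe {X Y : GSpace V} {f : X.und.Pt → Y.und.Pt} (h0 : f ∞ = ∞)
    (h : ∀ (g : V) (x : X.carrier), f ((g • x : X.carrier) : OnePoint X.carrier) =
      Y.smul g (f (x : OnePoint X.carrier))) : IsGMap (X := X) (Y := Y) f := by
  intro g x
  induction x using OnePoint.rec with
  | infty =>
    change f ∞ = Y.smul g (f ∞)
    rw [h0]
    rfl
  | coe x => exact h g x

/-- the rotation as an equivariant homotopy -/
theorem ghomotopic_rot (w : Map Z Z') :
    GHomotopic (X := SrcG E ι Z) (Y := TgtG U ι Z')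
      (app (dropHom (toLC E.und) κ ι (toHom w)))
      (fun x => app (htpy1 F (toHom w)) (LC.smash x ((1 : unitInterval) : OnePoint unitInterval))) := by
  have hH := isHtpy_of_hom (X := (SrcG E ι Z).und) (Y := (TgtG U ι Z').und) (htpy1 F (toHom w))
  refine ⟨_, ⟨hH, fun t => isGMap_of_coe (hH.2 t) ?_⟩, ?_, rfl⟩
  · rintro g ⟨e, z, x⟩
    change app (htpy1 F (toHom w)) (LC.smash (((g • e, (z, x)) : E.carrier × (Z.carrier × (ι → ℂ))) :
      OnePoint (E.carrier × (Z.carrier × (ι → ℂ)))) (t : OnePoint unitInterval)) =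
      (TgtG U ι Z').smul g (app (htpy1 F (toHom w)) (LC.smash
        (((e, (z, x)) : E.carrier × (Z.carrier × (ι → ℂ))) :
          OnePoint (E.carrier × (Z.carrier × (ι → ℂ)))) (t : OnePoint unitInterval)))
    refine (app_htpy1 F (toHom w) (g • e) z x t).trans ?_
    refine Eq.trans ?_ (congrArg ((TgtG U ι Z').smul g) (app_htpy1 F (toHom w) e z x t)).symm
    refine Eq.trans ?_ (smul_smash_tgt g _ _).symm
    congr 1
    · congr 1
      unfold rotFun
      simp only [cU_equi]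
      rw [mulVec_smul]
    · congr 1
      · congr 1
        unfold rotFun
        simp only [cP_inv]
  · funext x
    induction x using OnePoint.rec with
    | infty => exact (hH.2 0).trans (app_infty (dropHom (toLC E.und) κ ι (toHom w))).symm
    | coe p =>
      obtain ⟨e, z, x⟩ := p
      refine (app_htpy1 F (toHom w) e z x 0).trans ?_
      refine Eq.trans ?_ (app_dropHom_coe (toLC E.und) κ ι (toHom w) e z x).symm
      congr 1
      · congr 1
        unfold rotFun
        simp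
      · congr 1
        congr 1
        unfold rotFun
        simp

/-- the null-homotopy -/
theorem ghomotopic_null (w : Map Z Z')
    (k : LC.of (KE F hq × Z.carrier) ⊗ II ⟶ LC.of ((ι → ℂ) × Z'.carrier))
    (k0 : ∀ x, app k (LC.smash x ((0 : unitInterval) : OnePoint unitInterval)) =
      app (vecHom F hq ⊗ₘ toHom w) x)
    (k1 : ∀ x, app k (LC.smash x ((1 : unitInterval) : OnePoint unitInterval)) = ∞) :
    GHomotopic (X := SrcG E ι Z) (Y := TgtG U ι Z')
      (fun x => app (htpy1 F (toHom w)) (LC.smash x ((1 : unitInterval) : OnePoint unitInterval)))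
      (fun _ => ∞) := by
  have hH := isHtpy_of_hom (X := (SrcG E ι Z).und) (Y := (TgtG U ι Z').und)
    (htpy2 F hq (Z := toLC Z) (Z' := toLC Z') k)
  refine ⟨_, ⟨hH, fun t => isGMap_of_coe (hH.2 t) ?_⟩, ?_, ?_⟩
  · rintro g ⟨e, z, x⟩
    refine (app_htpy2 F hq (Z := toLC Z) (Z' := toLC Z') k (g • e) z x t).trans ?_
    refine Eq.trans ?_ (congrArg ((TgtG U ι Z').smul g)
      (app_htpy2 F hq (Z := toLC Z) (Z' := toLC Z') k e z x t)).symm
    refine Eq.trans ?_ (smul_smash_tgt g _ _).symm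
    have h1 : (spl F hq (g • e, x)).2 = (spl F hq (e, x)).2 := by
      apply Bun.E_ext
      · exact hq.smul g e
      · change x - cP F (g • e) x = x - cP F e x
        rw [cP_inv]
    rw [h1, cU_equi]
  · funext x
    induction x using OnePoint.rec with
    | infty =>
      exact (hH.2 0).trans ((isHtpy_of_hom (X := (SrcG E ι Z).und) (Y := (TgtG U ι Z').und)
        (htpy1 F (toHom w))).2 1).symm
    | coe p =>
      obtain ⟨e, z, x⟩ := p
      refine (app_htpy2 F hq (Z := toLC Z) (Z' := toLC Z') k e z x 0).trans ?_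
      refine Eq.trans ?_ (app_htpy1 F (toHom w) e z x 1).symm
      rw [k0]
      have h2 : app (vecHom F hq ⊗ₘ toHom w) ((((spl F hq (e, x)).2, z) :
          KE F hq × Z.carrier) : OnePoint (KE F hq × Z.carrier)) =
          LC.smash ((x - cP F e x : ι → ℂ) : OnePoint (ι → ℂ)) (app (toHom w) z) := rfl
      rw [h2]
      have h3 := app_swap_smash (Th.CC ι) (toLC Z') ((x - cP F e x : ι → ℂ) : OnePoint (ι → ℂ))
        (app (toHom w) z)
      refine (congrArg _ h3).trans ?_
      congr 1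
      · congr 1
        unfold rotFun
        simp
      · congr 1
        congr 1
        unfold rotFun
        simp
  · funext x
    induction x using OnePoint.rec with
    | infty => exact hH.2 1
    | coe p =>
      obtain ⟨e, z, x⟩ := p
      refine (app_htpy2 F hq (Z := toLC Z) (Z' := toLC Z') k e z x 1).trans ?_
      rw [k1, app_infty, LC.smash_infty_right]
      rfl

/-- **The bridge.** If `(p, z) ↦ (vec p, w z)` is null-homotopic, then the `V`-map
`(e, z, x) ↦ (0, w z, x)` is `V`-null-homotopic. -/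
theorem bridge (w : Map Z Z')
    (h : Vale.Agent.P251.St.Homotopic (X := (⟨KE F hq × Z.carrier⟩ : Space))
      (Y := (⟨(ι → ℂ) × Z'.carrier⟩ : Space)) (app (vecHom F hq ⊗ₘ toHom w)) (fun _ => ∞)) :
    GHomotopic (X := SrcG E ι Z) (Y := TgtG U ι Z')
      (app (dropHom (toLC E.und) κ ι (toHom w))) (fun _ => ∞) := by
  obtain ⟨K, hK, K0, K1⟩ := h
  refine ghomotopic_trans (ghomotopic_rot F w) (ghomotopic_null F hq w (htpyMap
    (X := (⟨KE F hq × Z.carrier⟩ : Space)) (Y := (⟨(ι → ℂ) × Z'.carrier⟩ : Space)) K hK)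
    (fun x => ?_) fun x => ?_)
  · exact (app_htpyMap (X := (⟨KE F hq × Z.carrier⟩ : Space))
      (Y := (⟨(ι → ℂ) × Z'.carrier⟩ : Space)) K hK x 0).trans (congrFun K0 x)
  · exact (app_htpyMap (X := (⟨KE F hq × Z.carrier⟩ : Space))
      (Y := (⟨(ι → ℂ) × Z'.carrier⟩ : Space)) K hK x 1).trans (congrFun K1 x)

end main

end Vale.Agent.P241.H302
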