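import Vale.Agent.P241.H302.Bridge
import Vale.Agent.P241.H808.Null

/-!
# P241, part EULNULL: from the bridge to nullity

* `ghomotopic_comp` : composites of homotopic equivariant maps;
* `repPB U` : the representation `U` with the point `0`;
* `bridgePM` : the map `(e, (y, (p, x))) ↦ (0, (y, (v p, x)))` and `bridgePM_null`, its
  `V`-null-homotopy from a null-homotopy of `(q, (y, p)) ↦ (vec q, (y, v p))`.
-/

open CategoryTheory MonoidalCategory Filter Topology OnePoint Matrix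

open Vale.Agent.P251.St (Space Map toLC toHom ofHom)
open Vale.Agent.P251.G Vale.Agent.P251.G.LC
open Vale.Agent.P241.St Vale.Agent.P241.EUL Vale.Agent.P241.H808

noncomputable section

namespace Vale.Agent.P241.H302

section gen

variable {G : Type} [Group G]

theorem ghomotopic_comp {W X Y Z : GSpace G} {f g : OnePoint X.carrier → OnePoint Y.carrier}
    (h : GHomotopic (X := X) (Y := Y) f g) (a : PM W X) (b : PM Y Z) :
    GHomotopic (X := W) (Y := Z) (fun w => b.at' (f (a.at' w))) (fun w => b.at' (g (a.at' w))) := by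
  obtain ⟨H, ⟨⟨h1, h2⟩, h3⟩, rfl, rfl⟩ := h
  refine ⟨fun t w => b.at' (H t (a.at' w)), ⟨⟨?_, fun t => ?_⟩, fun t g w => ?_⟩, rfl, rfl⟩
  · have ha : Continuous (fun z : unitInterval × OnePoint W.carrier => (z.1, a.at' z.2)) :=
      continuous_fst.prodMk ((continuous_app a.hom).comp continuous_snd)
    exact (continuous_app b.hom).comp (h1.comp ha)
  · change b.at' (H t (a.at' ∞)) = ∞
    rw [PM.at_infty]
    exact (congrArg b.at' (h2 t)).trans (PM.at_infty b)
  · change b.at' (H t (a.at' (W.smul g w))) = Z.smul g (b.at' (H t (a.at' w)))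
    rw [PM.at_smul a, ← PM.at_smul b]
    exact congrArg b.at' (h3 t g _)

end gen

section main

variable {V : Type} [Group V] {κ ι : Type} [Fintype κ] [DecidableEq κ] [Fintype ι]

/-- the representation `U` with the point `0` -/
def repPB (U : Rep V κ) : PB V where
  B := repSpace U
  b := (0 : κ → ℂ)
  fix g := by
    change (U g : Matrix κ κ ℂ) *ᵥ (0 : κ → ℂ) = 0
    rw [mulVec_zero]

variable [DecidableEq ι]

/-- the drop map as a `V`-map -/
def dropPM (E : GSpace V) [CompactSpace E.carrier] (U : Rep V κ) (ι : Type) [Fintype ι]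
    [DecidableEq ι] {Z Z' : Space} (w : Map Z Z') : PM (SrcG E ι Z) (TgtG U ι Z') where
  hom := dropHom (toLC E.und) κ ι (toHom w)
  eqv g := by
    rintro ⟨e, z, x⟩
    refine Eq.trans ?_ (smul_smash_tgt g _ _).symm
    have h : (U g : Matrix κ κ ℂ) *ᵥ (0 : κ → ℂ) = 0 := mulVec_zero _
    rw [h]
    rfl

variable {U : Rep V κ} {E : GSpace V} [CompactSpace E.carrier] (F : Frame E.carrier U ι)
  {B : Type} [TopologicalSpace B] [CompactSpace B] [T2Space B] [LocallyCompactSpace B]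
  {q : E.carrier → B} (hq : IsQuo V q) {Y P Q : LC} (v : P ⟶ Q)

/-- `(y, p) ↦ (y, v p)` -/
def idTimes (Y : LC) {P Q : LC} (v : P ⟶ Q) : Map ((Vale.Agent.P251.St.ofLC Y).prod
    (Vale.Agent.P251.St.ofLC P)) ((Vale.Agent.P251.St.ofLC Y).prod (Vale.Agent.P251.St.ofLC Q)) :=
  ofHom (X := (Vale.Agent.P251.St.ofLC Y).prod (Vale.Agent.P251.St.ofLC P))
    (Y := (Vale.Agent.P251.St.ofLC Y).prod (Vale.Agent.P251.St.ofLC Q)) (𝟙 Y ⊗ₘ v)

/-- `(e, (y, (p, x))) ↦ (e, ((y, p), x))` -/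
def assoPM (E : GSpace V) (Y P : LC) (ι : Type) [Fintype ι] :
    PM (E.prod ((tr V Y).prod (tr V (P ⊗ Th.CC ι))))
      (SrcG E ι ((Vale.Agent.P251.St.ofLC Y).prod (Vale.Agent.P251.St.ofLC P))) :=
  PM.emb
    (fun z : E.carrier × (Y × (P × (ι → ℂ))) => (z.1, ((z.2.1, z.2.2.1), z.2.2.2)))
    (fun z : E.carrier × ((Y × P) × (ι → ℂ)) => (z.1, (z.2.1.1, (z.2.1.2, z.2.2))))
    (by fun_prop) (by fun_prop) (fun _ => rfl) (fun _ _ => rfl)

/-- `(u, ((y, q), x)) ↦ (u, (y, (q, x)))` -/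
def assoPM' (U : Rep V κ) (Y Q : LC) (ι : Type) [Fintype ι] :
    PM (TgtG U ι ((Vale.Agent.P251.St.ofLC Y).prod (Vale.Agent.P251.St.ofLC Q)))
      ((repPB U).B.prod ((tr V Y).prod (tr V (Q ⊗ Th.CC ι)))) :=
  PM.emb
    (fun z : (κ → ℂ) × ((Y × Q) × (ι → ℂ)) => (z.1, (z.2.1.1, (z.2.1.2, z.2.2))))
    (fun z : (κ → ℂ) × (Y × (Q × (ι → ℂ))) => (z.1, ((z.2.1, z.2.2.1), z.2.2.2)))
    (by fun_prop) (by fun_prop) (fun _ => rfl) (fun _ _ => rfl)

/-- `(e, (y, (p, x))) ↦ (0, (y, (v p, x)))` -/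
def bridgePM (E : GSpace V) [CompactSpace E.carrier] (U : Rep V κ) (ι : Type) [Fintype ι]
    [DecidableEq ι] (Y : LC) {P Q : LC} (v : P ⟶ Q) :
    PM (E.prod ((tr V Y).prod (tr V (P ⊗ Th.CC ι))))
      ((repPB U).B.prod ((tr V Y).prod (tr V (Q ⊗ Th.CC ι)))) :=
  (assoPM E Y P ι).comp ((dropPM E U ι (idTimes Y v)).comp (assoPM' U Y Q ι))

theorem at_bridgePM (e : E.carrier) (y : (tr V Y).carrier) (a : (tr V (P ⊗ Th.CC ι)).carrier) :
    (bridgePM E U ι Y v).at' (OnePoint.some (pr e (pr y a))) =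
      sm (OnePoint.some (repPB U).b) (sm (OnePoint.some y)
        (vat (v ⊗ₘ 𝟙 (Th.CC ι)) (OnePoint.some a))) := by
  obtain ⟨p, x, rfl⟩ : ∃ p x, a = tq p x := ⟨t1 a, t2 a, rfl⟩
  rw [vat_tensor]
  have h1 : (bridgePM E U ι Y v).at' (OnePoint.some (pr e (pr y (tq p x)))) =
      (assoPM' U Y Q ι).at' (LC.smash ((0 : κ → ℂ) : OnePoint (κ → ℂ))
        (LC.smash (LC.smash (OnePoint.some (X := Y) y) (app v (OnePoint.some (X := P) p)))
          (OnePoint.some (X := ι → ℂ) x))) := rfl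
  rw [h1]
  have h2 : vat (G := V) v (OnePoint.some p) = app v (OnePoint.some (X := P) p) := rfl
  rw [h2]
  generalize app v (OnePoint.some (X := P) p) = c
  induction c using OnePoint.rec with
  | infty =>
    rw [LC.smash_infty_right, LC.smash_infty_left]
    exact PM.at_infty (assoPM' U Y Q ι)
  | coe c => rfl

/-- **Nullity from the bridge.** -/
theorem bridgePM_null (h : Vale.Agent.P251.St.Homotopic
      (X := (⟨KE F hq × (Y × P)⟩ : Space)) (Y := (⟨(ι → ℂ) × (Y × Q)⟩ : Space))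
      (app (vecHom F hq ⊗ₘ (𝟙 Y ⊗ₘ v))) (fun _ => ∞)) :
    GHomotopic (X := E.prod ((tr V Y).prod (tr V (P ⊗ Th.CC ι))))
      (Y := (repPB U).B.prod ((tr V Y).prod (tr V (Q ⊗ Th.CC ι))))
      (bridgePM E U ι Y v).at' (fun _ => ∞) := by
  have h1 := ghomotopic_comp (bridge F hq (idTimes Y v) h) (assoPM E Y P ι) (assoPM' U Y Q ι)
  have h2 : (fun _ : OnePoint (E.prod ((tr V Y).prod (tr V (P ⊗ Th.CC ι)))).carrier =>
      (assoPM' U Y Q ι).at' ∞) = fun _ => ∞ := funext fun _ => PM.at_infty _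
  rw [← h2]
  exact h1

end main

end Vale.Agent.P241.H302
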