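import Vale.Agent.P241.EUL.Frame

/-!
# P241, EUL (A3): equivariant frames over the star model

`starFrame U t : EUL.Frame E U (Fin m × k)` for a `V`-space `E` with an equivariant continuous map
`t : E → Fin m → V → ℝ` to the nonzero elements with at most one nonzero entry in each row.

`V` finite group, `U : V →* U(k)`. For `t : Fin m → V → ℝ` with `t i v * t i w = 0` for `v ≠ w`
and `t ≠ 0` let `R(t) : ℂ^k → ℂ^(Fin m × k)`, `R(t) (i, a) b = ∑ v, t i v * U(v⁻¹) a b / ‖t‖₂`.
Then `R(t)` is an isometry, continuous in `t`, and `R(g • t) * U(g) = R(t)`.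
-/

open Matrix

set_option linter.unusedSectionVars false

namespace Vale.Agent.P241.H302

open Vale.Agent.P251.G Vale.Agent.P251.G.LC

variable {V : Type} [Group V] [Fintype V] {k : Type} [Fintype k] [DecidableEq k] {m : ℕ}

/-- at most one coordinate of each `t i` is nonzero, and `t ≠ 0` -/
structure IsStar (t : Fin m → V → ℝ) : Prop where
  disj : ∀ i v w, v ≠ w → t i v * t i w = 0
  ne : t ≠ 0

/-- the sum of squares -/
def sqs (t : Fin m → V → ℝ) : ℝ := ∑ i, ∑ v, t i v ^ 2

theorem sqs_nonneg (t : Fin m → V → ℝ) : 0 ≤ sqs t :=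
  Finset.sum_nonneg fun _ _ => Finset.sum_nonneg fun _ _ => sq_nonneg _

theorem sqs_pos {t : Fin m → V → ℝ} (h : t ≠ 0) : 0 < sqs t := by
  obtain ⟨i, hi⟩ := Function.ne_iff.mp h
  obtain ⟨v, hv⟩ := Function.ne_iff.mp hi
  refine lt_of_lt_of_le (sq_pos_of_ne_zero (a := t i v) hv) ?_
  refine le_trans ?_ (Finset.single_le_sum (f := fun i => ∑ v, t i v ^ 2)
    (fun i _ => Finset.sum_nonneg fun v _ => sq_nonneg _) (Finset.mem_univ i))
  exact Finset.single_le_sum (f := fun v => t i v ^ 2) (fun v _ => sq_nonneg _)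
    (Finset.mem_univ v)

/-- the action of `V` -/
def act (g : V) (t : Fin m → V → ℝ) : Fin m → V → ℝ := fun i v => t i (g⁻¹ * v)

theorem sqs_act (g : V) (t : Fin m → V → ℝ) : sqs (act g t) = sqs t := by
  unfold sqs act
  refine Finset.sum_congr rfl fun i _ => ?_
  exact Equiv.sum_comp (Equiv.mulLeft g⁻¹) fun v => t i v ^ 2

/-- the matrix, not normalised -/
def starMat (U : V → Matrix k k ℂ) (t : Fin m → V → ℝ) : Matrix (Fin m × k) k ℂ :=
  Matrix.of fun p b => ∑ v, (t p.1 v : ℂ) * U v⁻¹ p.2 b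

theorem starMat_apply (U : V → Matrix k k ℂ) (t : Fin m → V → ℝ) (i : Fin m) (a b : k) :
    starMat U t (i, a) b = ∑ v, (t i v : ℂ) * U v⁻¹ a b := rfl

theorem continuous_starMat (U : V → Matrix k k ℂ) :
    Continuous (starMat U : (Fin m → V → ℝ) → _) := by
  refine continuous_matrix fun p b => ?_
  refine continuous_finsetSum _ fun v _ => ?_
  refine (Complex.continuous_ofReal.comp ?_).mul continuous_const
  exact (continuous_apply v).comp (continuous_apply p.1)

theorem starMat_act (U : V →* Matrix k k ℂ) (g : V) (t : Fin m → V → ℝ) :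
    starMat U (act g t) * U g = starMat U t := by
  ext ⟨i, a⟩ b
  rw [Matrix.mul_apply]
  simp only [starMat_apply, Finset.sum_mul]
  rw [Finset.sum_comm]
  rw [← Equiv.sum_comp (Equiv.mulLeft g)]
  refine Finset.sum_congr rfl fun v _ => ?_
  simp only [Equiv.coe_mulLeft, act, inv_mul_cancel_left, mul_assoc, ← Finset.mul_sum]
  congr 1
  have h : U (v⁻¹) = U ((g * v)⁻¹) * U g := by
    rw [← map_mul]; congr 1; group
  rw [h, Matrix.mul_apply]

theorem starMat_isom (U : V → Matrix k k ℂ) (hU : ∀ v, (U v)ᴴ * U v = 1) (t : Fin m → V → ℝ)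
    (ht : ∀ i v w, v ≠ w → t i v * t i w = 0) :
    (starMat U t)ᴴ * starMat U t = ((sqs t : ℝ) : ℂ) • 1 := by
  classical
  ext b c
  rw [Matrix.mul_apply, Fintype.sum_prod_type]
  simp only [conjTranspose_apply, starMat_apply]
  have h1 : ∀ i a, star (∑ v, (t i v : ℂ) * U v⁻¹ a b) * ∑ v, (t i v : ℂ) * U v⁻¹ a c =
      ∑ v, ((t i v ^ 2 : ℝ) : ℂ) * (star (U v⁻¹ a b) * U v⁻¹ a c) := by
    intro i a
    rw [star_sum, Finset.sum_mul]
    refine Finset.sum_congr rfl fun v _ => ?_
    rw [Finset.mul_sum, Finset.sum_eq_single v]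
    · rw [star_mul']
      simp only [Complex.star_def, Complex.conj_ofReal]
      push_cast
      ring
    · intro w _ hw
      rw [star_mul']
      simp only [Complex.star_def, Complex.conj_ofReal]
      have := ht i v w (Ne.symm hw)
      have h2 : (t i v : ℂ) * (t i w : ℂ) = 0 := by exact_mod_cast this
      linear_combination (starRingEnd ℂ (U v⁻¹ a b) * U w⁻¹ a c) * h2
    · intro h; exact absurd (Finset.mem_univ v) h
  simp only [h1]
  have h2 : ∀ i, ∑ a, ∑ v, ((t i v ^ 2 : ℝ) : ℂ) * (star (U v⁻¹ a b) * U v⁻¹ a c) =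
      ∑ v, ((t i v ^ 2 : ℝ) : ℂ) * (1 : Matrix k k ℂ) b c := by
    intro i
    rw [Finset.sum_comm]
    refine Finset.sum_congr rfl fun v _ => ?_
    rw [← Finset.mul_sum, ← hU v⁻¹, Matrix.mul_apply]
    rfl
  simp only [h2]
  rw [Matrix.smul_apply, smul_eq_mul, sqs]
  push_cast
  rw [Finset.sum_mul]
  refine Finset.sum_congr rfl fun i _ => ?_
  rw [Finset.sum_mul]

/-- the normalised matrix -/
noncomputable def starR (U : V → Matrix k k ℂ) (t : Fin m → V → ℝ) : Matrix (Fin m × k) k ℂ :=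
  (((Real.sqrt (sqs t))⁻¹ : ℝ) : ℂ) • starMat U t

theorem starR_isom (U : V → Matrix k k ℂ) (hU : ∀ v, (U v)ᴴ * U v = 1) {t : Fin m → V → ℝ}
    (ht : IsStar t) : (starR U t)ᴴ * starR U t = 1 := by
  unfold starR
  rw [conjTranspose_smul, Matrix.smul_mul, Matrix.mul_smul, starMat_isom U hU t ht.disj, smul_smul,
    smul_smul]
  have h1 : star (((Real.sqrt (sqs t))⁻¹ : ℝ) : ℂ) * ((((Real.sqrt (sqs t))⁻¹ : ℝ) : ℂ) *
      ((sqs t : ℝ) : ℂ)) = 1 := by
    simp only [Complex.star_def, Complex.conj_ofReal]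
    have h2 : (Real.sqrt (sqs t))⁻¹ * ((Real.sqrt (sqs t))⁻¹ * sqs t) = 1 := by
      have h3 : 0 < Real.sqrt (sqs t) := Real.sqrt_pos.mpr (sqs_pos ht.ne)
      have h4 := Real.mul_self_sqrt (sqs_nonneg t)
      field_simp
      nlinarith
    exact_mod_cast h2
  rw [mul_assoc, h1, one_smul]

theorem starR_act (U : V →* Matrix k k ℂ) (g : V) (t : Fin m → V → ℝ) :
    starR U (act g t) * U g = starR U t := by
  unfold starR
  rw [Matrix.smul_mul, starMat_act, sqs_act]

/-- The frame of the unitary representation `U` over a `V`-space `E` with an equivariant map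
`t : E → (star V)^m \ 0` (any normalisation). -/
noncomputable def starFrame {E : Type} [TopologicalSpace E] [MulAction V E] (U : EUL.Rep V k)
    (t : E → Fin m → V → ℝ) (hc : Continuous t) (ht : ∀ e, IsStar (t e))
    (hV : ∀ (g : V) e, t (g • e) = act g (t e)) : EUL.Frame E U (Fin m × k) where
  R e := starR (fun v => (U v : Matrix k k ℂ)) (t e)
  cont := by
    have h1 : Continuous fun e => sqs (t e) := by
      unfold sqs
      fun_prop
    have h2 : Continuous fun e => (Real.sqrt (sqs (t e)))⁻¹ :=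
      (Real.continuous_sqrt.comp h1).inv₀ fun e =>
        (Real.sqrt_pos.mpr (sqs_pos (ht e).ne)).ne'
    exact (Complex.continuous_ofReal.comp h2).smul ((continuous_starMat _).comp hc)
  isom e := starR_isom _ (fun v => U.star_mul v) (ht e)
  equi g e := by
    rw [hV]
    exact starR_act ((Matrix.unitaryGroup k ℂ).subtype.comp U) g (t e)

@[simp] theorem starFrame_R {E : Type} [TopologicalSpace E] [MulAction V E] (U : EUL.Rep V k)
    (t : E → Fin m → V → ℝ) (hc : Continuous t) (ht : ∀ e, IsStar (t e))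
    (hV : ∀ (g : V) e, t (g • e) = act g (t e)) (e : E) :
    (starFrame U t hc ht hV).R e = starR (fun v => (U v : Matrix k k ℂ)) (t e) := rfl

end Vale.Agent.P241.H302
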